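import Vale.Agent.Lib.P368.Adv4.Wide

/-!
# P368, many entangling layers with a set of sacrificed inputs: definitions

A set `T` of input positions is sacrificed: the bits of these inputs are summed without any
gain, and the factors of the gates only count the input qubits outside `T`.
-/

namespace Vale.Agent.Lib.P368

open Finset

section

variable {Q : Type} [Fintype Q] [DecidableEq Q]

/-- The flags of the input qubits whose positions are outside `T`. -/
def inTauOff {n : ℕ} (inp : Fin n ↪ Q) (T : Finset (Fin n)) (p : Q) : Bool :=
  decide (∃ j, j ∉ T ∧ inp j = p)

end

end Vale.Agent.Lib.P368
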