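import Vale.Agent.Lib.P368.Adv5.Defs

/-!
# P368, many entangling layers with sacrificed inputs: the middle layers of a circuit as rounds
-/

namespace Vale.Agent.Lib.P368

open Finset

variable {Q : Type} [Fintype Q] [DecidableEq Q]

omit [Fintype Q] in
/-- The number of flagged qubits of a set is the number of inputs outside `T` located in it. -/
theorem mg_card_filter {n : ℕ} (inp : Fin n ↪ Q) (T : Finset (Fin n)) (A : Finset Q) :
    (A.filter fun p => inTauOff inp T p = true).card =
      (univ.filter fun j => j ∉ T ∧ inp j ∈ A).card := by
  rw [← Finset.card_map inp]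
  congr 1
  ext p
  simp only [Finset.mem_filter, Finset.mem_map, Finset.mem_univ, true_and, inTauOff,
    decide_eq_true_eq]
  constructor
  · rintro ⟨hp, j, hj, rfl⟩
    exact ⟨j, ⟨hj, hp⟩, rfl⟩
  · rintro ⟨j, ⟨hj, hjA⟩, rfl⟩
    exact ⟨hjA, j, hj, rfl⟩

omit [Fintype Q] in
/-- The product of the factors over the supports of the generalized Toffoli gates of a layer,
as a product over the gates, with the flags of the inputs outside `T`. -/
theorem mg_round_prod {n : ℕ} (inp : Fin n ↪ Q) (T : Finset (Fin n)) (θ : ℝ)
    (l : List (TGate Q))
    (hnd : ((l.filter fun g => g.isRight).map TGate.support).Nodup) :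
    ∏ A ∈ ((l.filter fun g => g.isRight).map TGate.support).toFinset,
        gth θ (A.filter fun p => inTauOff inp T p = true).card =
      ((l.filter fun g => g.isRight).map fun g =>
        gth θ (univ.filter fun j => j ∉ T ∧ inp j ∈ g.support).card).prod := by
  rw [List.prod_toFinset _ hnd, List.map_map]
  congr 1
  apply List.map_congr_left
  intro g _
  simp only [Function.comp_apply]
  rw [mg_card_filter]

/-- The statement of `tRun_mid_form` with the flags of the input qubits outside `T`: the
factors of the gates count the input positions outside `T` in their supports. -/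
theorem tRun_mid_form_off {n : ℕ} (inp : Fin n ↪ Q) (T : Finset (Fin n)) (θ : ℝ)
    (mid : List (List (TGate Q))) (hv : ∀ l ∈ mid, LayerValid l) :
    ∃ mids : List (Finset (Finset Q) × (Q → Matrix Bool Bool ℂ)),
      (∀ r ∈ mids, (r.1 : Set (Finset Q)).PairwiseDisjoint id ∧
        ∀ p, r.2 p ∈ Matrix.unitaryGroup Bool ℂ) ∧
      entRounds mids = entDepth mid ∧
      gthProd θ (inTauOff inp T) mids =
        (mid.map fun l => ((l.filter fun g => g.isRight).map fun g =>
          gth θ (univ.filter fun j => j ∉ T ∧ inp j ∈ g.support).card).prod).prod ∧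
      ∀ ψ : StateVec Q, tRun mid ψ = midRun mids ψ := by
  induction mid with
  | nil =>
    refine ⟨[], ?_, ?_, ?_, ?_⟩
    · intro r hr
      simp at hr
    · rfl
    · simp [gthProd]
    · intro ψ
      rfl
  | cons l mid' ih =>
    obtain ⟨H, W, hH, hW, hdisj, hnd, hact⟩ := layerAct_normal_supp l (hv l List.mem_cons_self)
    obtain ⟨mids', h1, h2, h3, h4⟩ := ih (fun l' hl' => hv l' (List.mem_cons_of_mem _ hl'))
    refine ⟨(∅, H) :: (((l.filter fun g => g.isRight).map TGate.support).toFinset, W) :: mids',
      ?_, ?_, ?_, ?_⟩
    · intro r hr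
      rw [List.mem_cons, List.mem_cons] at hr
      rcases hr with rfl | rfl | hr
      · refine ⟨?_, hH⟩
        simp
      · exact ⟨hdisj, hW⟩
      · exact h1 r hr
    · unfold entRounds entDepth at *
      rw [List.filter_cons, List.filter_cons, List.filter_cons]
      by_cases he : isEnt l = true
      · have hL : ((l.filter fun g => g.isRight).map TGate.support).toFinset
            ≠ (∅ : Finset (Finset Q)) := (mf_ent_iff l).mpr he
        simpa [he, hL] using h2
      · have hL : ((l.filter fun g => g.isRight).map TGate.support).toFinset
            = (∅ : Finset (Finset Q)) := by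
          by_contra hc
          exact he ((mf_ent_iff l).mp hc)
        simpa [he, hL] using h2
    · rw [mf_gthProd_cons, mf_gthProd_cons, Finset.prod_empty, one_mul, h3, List.map_cons,
        List.prod_cons, mg_round_prod inp T θ l hnd]
    · intro ψ
      show tRun mid' (layerAct l ψ) = midRun mids' (oneQubitLayer W
        (czLayer ((l.filter fun g => g.isRight).map TGate.support).toFinset
          (oneQubitLayer H (czLayer ∅ ψ))))
      rw [czLayer_empty, h4, hact]

end Vale.Agent.Lib.P368
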