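import Vale.Agent.Lib.P368.Adv5.Split

/-!
# P368, many entangling layers with sacrificed inputs: the signed sum of the outcome
probabilities
-/

namespace Vale.Agent.Lib.P368

open Finset

variable {Q : Type} [Fintype Q] [DecidableEq Q]

/-- The signed sum of the squared norms of one contracted branch is a value of `gForm`, hence
at most the product of the factors of the flags outside `T` times the power `n + |T|` of
`sqrt 2`, for a vector of norm at most one. -/
theorem mnr_bound {n : ℕ} (inp : Fin n ↪ Q) (T : Finset (Fin n)) (θ : ℝ) (hθ0 : 0 < θ) (hθ1 : θ ≤ 1)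
    (mids : List (Finset (Finset Q) × (Q → Matrix Bool Bool ℂ)))
    (hmids : ∀ r ∈ mids, (r.1 : Set (Finset Q)).PairwiseDisjoint id ∧
      ∀ p, r.2 p ∈ Matrix.unitaryGroup Bool ℂ)
    (hθD : 1 / Real.sqrt 2 ≤ θ ^ entRounds mids)
    (w : Q → Matrix Bool Bool ℂ) (L1 : Finset (Finset Q)) (Φ : StateVec Q)
    (hw : ∀ p, w p ∈ Matrix.unitaryGroup Bool ℂ)
    (hL1 : (L1 : Set (Finset Q)).PairwiseDisjoint id) (hΦ : normSqSum Φ ≤ 1)
    (m : Q → Matrix Bool Bool ℂ)
    (hm : ∀ p, IsRow (m p) ∨ m p ∈ Matrix.unitaryGroup Bool ℂ) :
    |∑ y : Q → Bool, (∏ p, wt (inTau inp p) (y p)) *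
      normSqSum (oneQubitLayer m (czLayer L1 (midRun mids (oneQubitLayer
        (fun p => if inTau inp p = true then colMat (w p) (y p) else 1) Φ))))| ≤
      gthProd θ (inTauOff inp T) mids * Real.sqrt 2 ^ T.card * Real.sqrt 2 ^ n := by
  have e : ((∑ y : Q → Bool, (∏ p, wt (inTau inp p) (y p)) *
      normSqSum (oneQubitLayer m (czLayer L1 (midRun mids (oneQubitLayer
        (fun p => if inTau inp p = true then colMat (w p) (y p) else 1) Φ)))) : ℝ) : ℂ)
      = gForm (inTau inp)
          (fun p c => if inTau inp p = true then colMat (w p) c else 1)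
          (fun p c => if inTau inp p = true then colMat (w p) c else 1)
          (fun χ => czLayer L1 (midRun mids χ))
          (fun p => (m p).conjTranspose * m p) Φ Φ := by
    unfold gForm
    rw [Complex.ofReal_sum]
    refine Finset.sum_congr rfl fun y _ => ?_
    rw [Complex.ofReal_mul, normSqSum_eq_expVal]
    rfl
  have hadm : Adm2 (inTau inp)
      (fun p c => if inTau inp p = true then colMat (w p) c else 1)
      (fun p c => if inTau inp p = true then colMat (w p) c else 1) := by
    intro p
    constructor
    · intro hp
      have hc : ∀ c, (if inTau inp p = true then colMat (w p) c else 1) = colMat (w p) c := by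
        intro c
        rw [if_pos hp]
      exact ⟨w p, hw p, hc, hc⟩
    · intro hp
      have hc : IsContr (if inTau inp p = true then colMat (w p) false else 1) := by
        rw [hp, if_neg Bool.false_ne_true]
        exact isContr_one
      exact ⟨hc, hc⟩
  have hC : ∀ p ∈ T.map inp, inTau inp p = true := by
    intro p hp
    obtain ⟨j, _, rfl⟩ := Finset.mem_map.mp hp
    unfold inTau
    exact decide_eq_true ⟨j, rfl⟩
  have hb := gForm_bound_off θ hθ0 hθ1 L1 m hL1 hm mids hmids hθD (inTau inp)
    (fun p c => if inTau inp p = true then colMat (w p) c else 1)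
    (fun p c => if inTau inp p = true then colMat (w p) c else 1)
    hadm (T.map inp) hC Φ Φ
  have ha : (fun p => if p ∈ T.map inp then false else inTau inp p) = inTauOff inp T := by
    funext p
    unfold inTau inTauOff
    by_cases hp : p ∈ T.map inp
    · rw [if_pos hp]
      obtain ⟨j, hj, rfl⟩ := Finset.mem_map.mp hp
      symm
      rw [decide_eq_false_iff_not]
      rintro ⟨j', hj', h⟩
      exact hj' (inp.injective h ▸ hj)
    · rw [if_neg hp]
      have hiff : (∃ j, inp j = p) ↔ ∃ j, j ∉ T ∧ inp j = p := by
        constructor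
        · rintro ⟨j, rfl⟩
          exact ⟨j, fun hj => hp (Finset.mem_map.mpr ⟨j, hj, rfl⟩), rfl⟩
        · rintro ⟨j, _, h⟩
          exact ⟨j, h⟩
      exact decide_eq_decide.mpr hiff
  have ha' : ∀ p, (if p ∈ T.map inp then false else inTau inp p) = inTauOff inp T p :=
    fun p => congrFun ha p
  rw [ha] at hb
  simp only [ha'] at hb
  have hk : (univ.filter fun p => inTauOff inp T p = true) = (univ \ T).map inp := by
    ext p
    simp only [Finset.mem_filter, Finset.mem_univ, true_and, Finset.mem_map, Finset.mem_sdiff]
    unfold inTauOff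
    rw [decide_eq_true_eq]
  have hkc : (univ.filter fun p => inTauOff inp T p = true).card + T.card = n := by
    rw [hk, Finset.card_map, Finset.card_univ_sdiff, Fintype.card_fin]
    have hT : T.card ≤ n := by
      have h := Finset.card_le_univ T
      rwa [Fintype.card_fin] at h
    omega
  have hn : Real.sqrt 2 ^ n = Real.sqrt 2 ^ (univ.filter fun p => inTauOff inp T p = true).card
      * Real.sqrt 2 ^ T.card := by
    rw [← pow_add]
    exact congrArg (fun k => Real.sqrt 2 ^ k) hkc.symm
  have h2T : (2 : ℝ) ^ T.card = Real.sqrt 2 ^ T.card * Real.sqrt 2 ^ T.card := by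
    rw [← mul_pow, Real.mul_self_sqrt (by norm_num)]
  rw [← e, Complex.norm_real, Real.norm_eq_abs, Finset.card_map,
    Real.mul_self_sqrt (gd_normSqSum_nonneg Φ)] at hb
  have hgp : 0 ≤ gthProd θ (inTauOff inp T) mids := gthProd_nonneg θ hθ0.le _ _
  have hs0 : (0 : ℝ) ≤ Real.sqrt 2 := Real.sqrt_nonneg 2
  have hg : 0 ≤ gthProd θ (inTauOff inp T) mids *
      Real.sqrt 2 ^ (univ.filter fun p => inTauOff inp T p = true).card :=
    mul_nonneg hgp (pow_nonneg hs0 _)
  have h2 : (0 : ℝ) ≤ 2 ^ T.card := by positivity
  calc |∑ y : Q → Bool, (∏ p, wt (inTau inp p) (y p)) *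
      normSqSum (oneQubitLayer m (czLayer L1 (midRun mids (oneQubitLayer
        (fun p => if inTau inp p = true then colMat (w p) (y p) else 1) Φ))))|
      ≤ 2 ^ T.card * (gthProd θ (inTauOff inp T) mids *
          Real.sqrt 2 ^ (univ.filter fun p => inTauOff inp T p = true).card *
          normSqSum Φ) := hb
    _ ≤ 2 ^ T.card * (gthProd θ (inTauOff inp T) mids *
          Real.sqrt 2 ^ (univ.filter fun p => inTauOff inp T p = true).card * 1) :=
        mul_le_mul_of_nonneg_left (mul_le_mul_of_nonneg_left hΦ hg) h2
    _ = gthProd θ (inTauOff inp T) mids * Real.sqrt 2 ^ T.card * Real.sqrt 2 ^ n := by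
        rw [mul_one, hn, h2T]
        ring

/-- The same bound with the sum over the inputs `x` located on the input qubits. -/
theorem mnr_bound_x {n : ℕ} (inp : Fin n ↪ Q) (T : Finset (Fin n)) (θ : ℝ) (hθ0 : 0 < θ) (hθ1 : θ ≤ 1)
    (mids : List (Finset (Finset Q) × (Q → Matrix Bool Bool ℂ)))
    (hmids : ∀ r ∈ mids, (r.1 : Set (Finset Q)).PairwiseDisjoint id ∧
      ∀ p, r.2 p ∈ Matrix.unitaryGroup Bool ℂ)
    (hθD : 1 / Real.sqrt 2 ≤ θ ^ entRounds mids)
    (w : Q → Matrix Bool Bool ℂ) (L1 : Finset (Finset Q)) (Φ : StateVec Q)
    (hw : ∀ p, w p ∈ Matrix.unitaryGroup Bool ℂ)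
    (hL1 : (L1 : Set (Finset Q)).PairwiseDisjoint id) (hΦ : normSqSum Φ ≤ 1)
    (m : Q → Matrix Bool Bool ℂ)
    (hm : ∀ p, IsRow (m p) ∨ m p ∈ Matrix.unitaryGroup Bool ℂ) :
    |∑ x : Fin n → Bool, sgn x *
      normSqSum (oneQubitLayer m (czLayer L1 (midRun mids (oneQubitLayer
        (fun p => if inTau inp p = true then
          colMat (w p) (Function.extend inp x (fun _ => false) p) else 1) Φ))))| ≤
      gthProd θ (inTauOff inp T) mids * Real.sqrt 2 ^ T.card * Real.sqrt 2 ^ n := by
  have h := sum_sgn_extend inp (fun y : Q → Bool =>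
    normSqSum (oneQubitLayer m (czLayer L1 (midRun mids (oneQubitLayer
      (fun p => if inTau inp p = true then colMat (w p) (y p) else 1) Φ)))))
  have hb := mnr_bound inp T θ hθ0 hθ1 mids hmids hθD w L1 Φ hw hL1 hΦ m hm
  rw [← h] at hb
  exact hb

/-- The signed sum of `advice_signed_sum_many` with a set `T` of sacrificed input positions:
each sacrificed input costs the factor `sqrt 2`, and the factors of the gates only count the
input qubits outside `T`. -/
theorem advice_signed_sum_many_off {n : ℕ} (inp : Fin n ↪ Q) (T : Finset (Fin n))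
    (θ : ℝ) (hθ0 : 0 < θ) (hθ1 : θ ≤ 1)
    (mids : List (Finset (Finset Q) × (Q → Matrix Bool Bool ℂ)))
    (hmids : ∀ r ∈ mids, (r.1 : Set (Finset Q)).PairwiseDisjoint id ∧
      ∀ p, r.2 p ∈ Matrix.unitaryGroup Bool ℂ)
    (hθD : 1 / Real.sqrt 2 ≤ θ ^ entRounds mids)
    (v last w : Q → Matrix Bool Bool ℂ) (L1 L2 : Finset (Finset Q)) (Φ : StateVec Q)
    (hv : ∀ p, v p ∈ Matrix.unitaryGroup Bool ℂ)
    (hlast : ∀ p, last p ∈ Matrix.unitaryGroup Bool ℂ)
    (hw : ∀ p, w p ∈ Matrix.unitaryGroup Bool ℂ)
    (hL1 : (L1 : Set (Finset Q)).PairwiseDisjoint id)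
    (hL2 : (L2 : Set (Finset Q)).PairwiseDisjoint id) (hΦ : normSqSum Φ ≤ 1) (q : Q) (b : Bool) :
    |∑ x : Fin n → Bool, sgn x * measProb (oneQubitLayer last (oneQubitLayer (fun _ => 1)
      (czLayer L2 (oneQubitLayer v (czLayer L1 (midRun mids
        (oneQubitLayer (fun p => if inTau inp p = true then
          colMat (w p) (Function.extend inp x (fun _ => false) p) else 1) Φ))))))) q b| ≤
      3 * (gthProd θ (inTauOff inp T) mids * Real.sqrt 2 ^ T.card * Real.sqrt 2 ^ n) := by
  obtain ⟨B', r', hr', hmeas⟩ := measProb_depth_two L2 hL2 (last q) q b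
  have hrow : Complex.normSq (last q b false) + Complex.normSq (last q b true) = 1 :=
    unitary_row _ (hlast q) b
  have hrow' : Complex.normSq (r' false) + Complex.normSq (r' true) ≤ 1 := by
    rw [hr' false, hr' true]
    exact le_of_eq hrow
  have hc0 : ∀ p, IsRow ((if p = q then rowMat b (last q b) else 1) * v p) ∨
      (if p = q then rowMat b (last q b) else 1) * v p ∈ Matrix.unitaryGroup Bool ℂ := by
    intro p
    split_ifs
    · exact Or.inl (isRow_mul_unitary _ _ (isRow_rowMat b _ (le_of_eq hrow)) (hv p))
    · right
      rw [one_mul]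
      exact hv p
  have hc1 : ∀ p, IsRow ((if p = q then rowMat b (last q b) else
      if p ∈ B' then projOne else 1) * v p) ∨
      (if p = q then rowMat b (last q b) else
        if p ∈ B' then projOne else 1) * v p ∈ Matrix.unitaryGroup Bool ℂ := by
    intro p
    split_ifs
    · exact Or.inl (isRow_mul_unitary _ _ (isRow_rowMat b _ (le_of_eq hrow)) (hv p))
    · exact Or.inl (isRow_mul_unitary _ _ isRow_projOne (hv p))
    · right
      rw [one_mul]
      exact hv p
  have hc2 : ∀ p, IsRow ((if p = q then rowMat b r' else
      if p ∈ B' then projOne else 1) * v p) ∨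
      (if p = q then rowMat b r' else
        if p ∈ B' then projOne else 1) * v p ∈ Matrix.unitaryGroup Bool ℂ := by
    intro p
    split_ifs
    · exact Or.inl (isRow_mul_unitary _ _ (isRow_rowMat b _ hrow') (hv p))
    · exact Or.inl (isRow_mul_unitary _ _ isRow_projOne (hv p))
    · right
      rw [one_mul]
      exact hv p
  have hterm : ∀ x : Fin n → Bool, measProb (oneQubitLayer last (oneQubitLayer (fun _ => 1)
      (czLayer L2 (oneQubitLayer v (czLayer L1 (midRun mids
        (oneQubitLayer (fun p => if inTau inp p = true then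
          colMat (w p) (Function.extend inp x (fun _ => false) p) else 1) Φ))))))) q b =
      normSqSum (oneQubitLayer (fun p => (if p = q then rowMat b (last q b) else 1) * v p)
        (czLayer L1 (midRun mids (oneQubitLayer
          (fun p => if inTau inp p = true then
            colMat (w p) (Function.extend inp x (fun _ => false) p) else 1) Φ))))
      - normSqSum (oneQubitLayer (fun p => (if p = q then rowMat b (last q b) else
          if p ∈ B' then projOne else 1) * v p)
        (czLayer L1 (midRun mids (oneQubitLayer
          (fun p => if inTau inp p = true then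
            colMat (w p) (Function.extend inp x (fun _ => false) p) else 1) Φ))))
      + normSqSum (oneQubitLayer (fun p => (if p = q then rowMat b r' else
          if p ∈ B' then projOne else 1) * v p)
        (czLayer L1 (midRun mids (oneQubitLayer
          (fun p => if inTau inp p = true then
            colMat (w p) (Function.extend inp x (fun _ => false) p) else 1) Φ)))) := by
    intro x
    rw [oneQubitLayer_one]
    have h1 := measProb_oneQubitLayer_local last hlast
      (czLayer L2 (oneQubitLayer v (czLayer L1 (midRun mids (oneQubitLayer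
        (fun p => if inTau inp p = true then
            colMat (w p) (Function.extend inp x (fun _ => false) p) else 1) Φ))))) q b
    rw [h1]
    have h2 := hmeas (oneQubitLayer v (czLayer L1 (midRun mids (oneQubitLayer
        (fun p => if inTau inp p = true then
            colMat (w p) (Function.extend inp x (fun _ => false) p) else 1) Φ))))
    rw [h2, oneQubitLayer_comp, oneQubitLayer_comp, oneQubitLayer_comp]
  have b0 := mnr_bound_x inp T θ hθ0 hθ1 mids hmids hθD w L1 Φ hw hL1 hΦ _ hc0
  have b1 := mnr_bound_x inp T θ hθ0 hθ1 mids hmids hθD w L1 Φ hw hL1 hΦ _ hc1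
  have b2 := mnr_bound_x inp T θ hθ0 hθ1 mids hmids hθD w L1 Φ hw hL1 hΦ _ hc2
  have hsum : (∑ x : Fin n → Bool, sgn x * measProb (oneQubitLayer last (oneQubitLayer (fun _ => 1)
      (czLayer L2 (oneQubitLayer v (czLayer L1 (midRun mids
        (oneQubitLayer (fun p => if inTau inp p = true then
          colMat (w p) (Function.extend inp x (fun _ => false) p) else 1) Φ))))))) q b) =
      (∑ x : Fin n → Bool, sgn x *
        normSqSum (oneQubitLayer (fun p => (if p = q then rowMat b (last q b) else 1) * v p)
        (czLayer L1 (midRun mids (oneQubitLayer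
          (fun p => if inTau inp p = true then
            colMat (w p) (Function.extend inp x (fun _ => false) p) else 1) Φ)))))
      - (∑ x : Fin n → Bool, sgn x *
        normSqSum (oneQubitLayer (fun p => (if p = q then rowMat b (last q b) else
          if p ∈ B' then projOne else 1) * v p)
        (czLayer L1 (midRun mids (oneQubitLayer
          (fun p => if inTau inp p = true then
            colMat (w p) (Function.extend inp x (fun _ => false) p) else 1) Φ)))))
      + (∑ x : Fin n → Bool, sgn x *
        normSqSum (oneQubitLayer (fun p => (if p = q then rowMat b r' else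
          if p ∈ B' then projOne else 1) * v p)
        (czLayer L1 (midRun mids (oneQubitLayer
          (fun p => if inTau inp p = true then
            colMat (w p) (Function.extend inp x (fun _ => false) p) else 1) Φ))))) := by
    rw [← Finset.sum_sub_distrib, ← Finset.sum_add_distrib]
    refine Finset.sum_congr rfl fun x _ => ?_
    rw [hterm]
    ring
  rw [hsum]
  have t1 := abs_add_le
    ((∑ x : Fin n → Bool, sgn x *
        normSqSum (oneQubitLayer (fun p => (if p = q then rowMat b (last q b) else 1) * v p)
        (czLayer L1 (midRun mids (oneQubitLayer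
          (fun p => if inTau inp p = true then
            colMat (w p) (Function.extend inp x (fun _ => false) p) else 1) Φ)))))
      - (∑ x : Fin n → Bool, sgn x *
        normSqSum (oneQubitLayer (fun p => (if p = q then rowMat b (last q b) else
          if p ∈ B' then projOne else 1) * v p)
        (czLayer L1 (midRun mids (oneQubitLayer
          (fun p => if inTau inp p = true then
            colMat (w p) (Function.extend inp x (fun _ => false) p) else 1) Φ))))))
    (∑ x : Fin n → Bool, sgn x *
        normSqSum (oneQubitLayer (fun p => (if p = q then rowMat b r' else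
          if p ∈ B' then projOne else 1) * v p)
        (czLayer L1 (midRun mids (oneQubitLayer
          (fun p => if inTau inp p = true then
            colMat (w p) (Function.extend inp x (fun _ => false) p) else 1) Φ)))))
  have t2 := abs_sub
    (∑ x : Fin n → Bool, sgn x *
        normSqSum (oneQubitLayer (fun p => (if p = q then rowMat b (last q b) else 1) * v p)
        (czLayer L1 (midRun mids (oneQubitLayer
          (fun p => if inTau inp p = true then
            colMat (w p) (Function.extend inp x (fun _ => false) p) else 1) Φ)))))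
    (∑ x : Fin n → Bool, sgn x *
        normSqSum (oneQubitLayer (fun p => (if p = q then rowMat b (last q b) else
          if p ∈ B' then projOne else 1) * v p)
        (czLayer L1 (midRun mids (oneQubitLayer
          (fun p => if inTau inp p = true then
            colMat (w p) (Function.extend inp x (fun _ => false) p) else 1) Φ)))))
  linarith

end Vale.Agent.Lib.P368
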