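import Vale.Agent.Lib.P368.Adv5.Defs

/-!
# P368, many entangling layers with sacrificed inputs: splitting off the bits of a set of
flagged qubits, and the resulting bound on the signed form
-/

namespace Vale.Agent.Lib.P368

open Finset

variable {Q : Type} [Fintype Q] [DecidableEq Q]

/-- The weights of the pairs of bit strings that glue to a given `z`. -/
theorem sp_weight (τ : Q → Bool) (C : Finset Q) (hC : ∀ p ∈ C, τ p = true) (z : Q → Bool) :
    (∑ c : Q → Bool, ∑ y : Q → Bool,
      ((wprod (fun p => decide (p ∈ C)) c : ℝ) : ℂ) *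
        ((wprod (fun p => if p ∈ C then false else τ p) y : ℝ) : ℂ) *
        (if (fun p => if p ∈ C then c p else y p) = z then (1 : ℂ) else 0)) =
      ((wprod τ z : ℝ) : ℂ) := by
  have hind : ∀ c y : Q → Bool,
      (if (fun p => if p ∈ C then c p else y p) = z then (1 : ℂ) else 0) =
        ∏ p, (if (if p ∈ C then c p else y p) = z p then (1 : ℂ) else 0) := by
    intro c y
    rw [Finset.prod_ite_zero]
    simp [funext_iff]
  have hterm : ∀ c y : Q → Bool,
      ((wprod (fun p => decide (p ∈ C)) c : ℝ) : ℂ) *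
        ((wprod (fun p => if p ∈ C then false else τ p) y : ℝ) : ℂ) *
        (if (fun p => if p ∈ C then c p else y p) = z then (1 : ℂ) else 0) =
      ∏ p, (((wt (decide (p ∈ C)) (c p) : ℝ) : ℂ) *
        ((wt (if p ∈ C then false else τ p) (y p) : ℝ) : ℂ) *
        (if (if p ∈ C then c p else y p) = z p then (1 : ℂ) else 0)) := by
    intro c y
    rw [hind, Finset.prod_mul_distrib, Finset.prod_mul_distrib]
    unfold wprod
    rw [Complex.ofReal_prod, Complex.ofReal_prod]
  simp only [hterm]
  have h1 : ∀ c : Q → Bool, (∑ y : Q → Bool, ∏ p, (((wt (decide (p ∈ C)) (c p) : ℝ) : ℂ) *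
        ((wt (if p ∈ C then false else τ p) (y p) : ℝ) : ℂ) *
        (if (if p ∈ C then c p else y p) = z p then (1 : ℂ) else 0))) =
      ∏ p, ∑ b : Bool, (((wt (decide (p ∈ C)) (c p) : ℝ) : ℂ) *
        ((wt (if p ∈ C then false else τ p) b : ℝ) : ℂ) *
        (if (if p ∈ C then c p else b) = z p then (1 : ℂ) else 0)) := by
    intro c
    exact sum_prod_eq_prod_sum (fun p b => ((wt (decide (p ∈ C)) (c p) : ℝ) : ℂ) *
        ((wt (if p ∈ C then false else τ p) b : ℝ) : ℂ) *
        (if (if p ∈ C then c p else b) = z p then (1 : ℂ) else 0))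
  simp only [h1]
  rw [sum_prod_eq_prod_sum (fun p a => ∑ b : Bool, (((wt (decide (p ∈ C)) a : ℝ) : ℂ) *
        ((wt (if p ∈ C then false else τ p) b : ℝ) : ℂ) *
        (if (if p ∈ C then a else b) = z p then (1 : ℂ) else 0)))]
  unfold wprod
  rw [Complex.ofReal_prod]
  refine Finset.prod_congr rfl fun p _ => ?_
  by_cases hp : p ∈ C
  · have ht := hC p hp
    cases hz : z p <;> simp [hp, ht, wt]
  · cases hz : z p <;> cases ht : τ p <;> simp [hp, wt]

/-- The sum over `z` is the sum over the bits on `C` and the bits off `C`. -/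
theorem sp_mix (τ : Q → Bool) (C : Finset Q) (hC : ∀ p ∈ C, τ p = true)
    (F : (Q → Bool) → ℂ) :
    ∑ z, ((wprod τ z : ℝ) : ℂ) * F z =
      ∑ c : Q → Bool, ((wprod (fun p => decide (p ∈ C)) c : ℝ) : ℂ) *
        ∑ y : Q → Bool, ((wprod (fun p => if p ∈ C then false else τ p) y : ℝ) : ℂ) *
          F (fun p => if p ∈ C then c p else y p) := by
  have h1 : ∀ z, ((wprod τ z : ℝ) : ℂ) * F z = ∑ c : Q → Bool, ∑ y : Q → Bool,
      ((wprod (fun p => decide (p ∈ C)) c : ℝ) : ℂ) *
        ((wprod (fun p => if p ∈ C then false else τ p) y : ℝ) : ℂ) *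
        (if (fun p => if p ∈ C then c p else y p) = z then F z else 0) := by
    intro z
    rw [← sp_weight τ C hC z, Finset.sum_mul]
    refine Finset.sum_congr rfl fun c _ => ?_
    rw [Finset.sum_mul]
    refine Finset.sum_congr rfl fun y _ => ?_
    split_ifs <;> simp
  simp only [h1]
  rw [Finset.sum_comm]
  refine Finset.sum_congr rfl fun c _ => ?_
  rw [Finset.sum_comm, Finset.mul_sum]
  refine Finset.sum_congr rfl fun y _ => ?_
  rw [← Finset.mul_sum, Finset.sum_ite_eq]
  simp [mul_assoc]

/-- The sum over the bits of the flagged qubits of `C` is taken apart: for each choice `c` of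
these bits the qubits of `C` lose their flags and carry the fixed matrices `εa p (c p)`,
`εb p (c p)`. -/
theorem gForm_split (τ : Q → Bool) (εa εb : Q → Bool → Matrix Bool Bool ℂ)
    (R : StateVec Q → StateVec Q) (O : Q → Matrix Bool Bool ℂ) (C : Finset Q)
    (hC : ∀ p ∈ C, τ p = true) (φ ψ : StateVec Q) :
    gForm τ εa εb R O φ ψ =
      ∑ c : Q → Bool, ((wprod (fun p => decide (p ∈ C)) c : ℝ) : ℂ) *
        gForm (fun p => if p ∈ C then false else τ p)
          (fun p b => if p ∈ C then εa p (c p) else εa p b)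
          (fun p b => if p ∈ C then εb p (c p) else εb p b) R O φ ψ := by
  unfold gForm
  rw [sp_mix τ C hC (fun z => ip (R (oneQubitLayer (fun p => εa p (z p)) φ))
      (oneQubitLayer O (R (oneQubitLayer (fun p => εb p (z p)) ψ))))]
  refine Finset.sum_congr rfl fun c _ => ?_
  congr 1
  refine Finset.sum_congr rfl fun y _ => ?_
  have ha : (fun p => εa p (if p ∈ C then c p else y p)) =
      fun p => (if p ∈ C then εa p (c p) else εa p (y p)) := by
    funext p
    split_ifs <;> rfl
  have hb : (fun p => εb p (if p ∈ C then c p else y p)) =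
      fun p => (if p ∈ C then εb p (c p) else εb p (y p)) := by
    funext p
    split_ifs <;> rfl
  simp only [ha, hb]

/-- The bound on the signed form through the rounds when the flagged qubits of `C` are
sacrificed: they cost the factor `2` each and are not counted by the factors of the gates. -/
theorem gForm_bound_off (θ : ℝ) (hθ0 : 0 < θ) (hθ1 : θ ≤ 1)
    (L1 : Finset (Finset Q)) (m : Q → Matrix Bool Bool ℂ)
    (hL1 : (L1 : Set (Finset Q)).PairwiseDisjoint id)
    (hm : ∀ p, IsRow (m p) ∨ m p ∈ Matrix.unitaryGroup Bool ℂ)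
    (mids : List (Finset (Finset Q) × (Q → Matrix Bool Bool ℂ)))
    (hmids : ∀ r ∈ mids, (r.1 : Set (Finset Q)).PairwiseDisjoint id ∧
      ∀ p, r.2 p ∈ Matrix.unitaryGroup Bool ℂ)
    (hθD : 1 / Real.sqrt 2 ≤ θ ^ entRounds mids)
    (τ : Q → Bool) (εa εb : Q → Bool → Matrix Bool Bool ℂ) (hadm : Adm2 τ εa εb)
    (C : Finset Q) (hC : ∀ p ∈ C, τ p = true) (φ ψ : StateVec Q) :
    ‖gForm τ εa εb (fun χ => czLayer L1 (midRun mids χ))
        (fun p => (m p).conjTranspose * m p) φ ψ‖ ≤
      2 ^ C.card * (gthProd θ (fun p => if p ∈ C then false else τ p) mids *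
        Real.sqrt 2 ^ (univ.filter fun p => (if p ∈ C then false else τ p) = true).card *
        (Real.sqrt (normSqSum φ) * Real.sqrt (normSqSum ψ))) := by
  rw [gForm_split τ εa εb _ _ C hC φ ψ]
  have hterm : ∀ c : Q → Bool,
      ‖((wprod (fun p => decide (p ∈ C)) c : ℝ) : ℂ) *
        gForm (fun p => if p ∈ C then false else τ p)
          (fun p b => if p ∈ C then εa p (c p) else εa p b)
          (fun p b => if p ∈ C then εb p (c p) else εb p b)
          (fun χ => czLayer L1 (midRun mids χ))
          (fun p => (m p).conjTranspose * m p) φ ψ‖ ≤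
        |∏ p, wt (decide (p ∈ C)) (c p)| *
          (gthProd θ (fun p => if p ∈ C then false else τ p) mids *
            Real.sqrt 2 ^ (univ.filter fun p => (if p ∈ C then false else τ p) = true).card *
            (Real.sqrt (normSqSum φ) * Real.sqrt (normSqSum ψ))) := by
    intro c
    rw [norm_mul, Complex.norm_real, Real.norm_eq_abs]
    have hadmC : Adm2 (fun p => if p ∈ C then false else τ p)
        (fun p b => if p ∈ C then εa p (c p) else εa p b)
        (fun p b => if p ∈ C then εb p (c p) else εb p b) := by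
      intro p
      by_cases hp : p ∈ C
      · simp only [hp, if_true]
        refine ⟨fun h => absurd h (by simp), fun _ => ?_⟩
        obtain ⟨u, hu, h1, h2⟩ := (hadm p).1 (hC p hp)
        rw [h1, h2]
        exact ⟨isContr_colMat u hu _, isContr_colMat u hu _⟩
      · simp only [hp, if_false]
        exact hadm p
    have hb := gForm_bound θ hθ0 hθ1 L1 m hL1 hm mids hmids hθD _ _ _ hadmC φ ψ
    exact mul_le_mul_of_nonneg_left hb (abs_nonneg _)
  refine le_trans (norm_sum_le _ _) ?_
  refine le_trans (Finset.sum_le_sum fun c _ => hterm c) ?_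
  rw [← Finset.sum_mul, b2_sum_abs_weight]
  have hcard : (univ.filter fun p => decide (p ∈ C) = true) = C := by
    ext p
    simp
  rw [hcard]

end Vale.Agent.Lib.P368
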