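import Vale.Agent.Lib.P368.Adv5.FinalR

/-!
# P368, many entangling layers with sacrificed inputs: circuits whose gates before the last two
entangling layers touch no input qubit or many input qubits outside the sacrificed set
-/

namespace Vale.Agent.Lib.P368

open Finset

variable {Q : Type} [Fintype Q] [DecidableEq Q]

omit [Fintype Q] in
/-- The product of the factors of a list of gates is nonnegative. -/
theorem wr_prod_nonneg {n : ℕ} (inp : Fin n ↪ Q) (T : Finset (Fin n)) (θ : ℝ) (hθ0 : 0 < θ)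
    (l : List (TGate Q)) :
    0 ≤ (l.map fun g => gth θ (univ.filter fun j => j ∉ T ∧ inp j ∈ g.support).card).prod := by
  apply List.prod_nonneg
  intro x hx
  obtain ⟨g, _, rfl⟩ := List.mem_map.mp hx
  exact le_trans zero_le_one (one_le_gth θ hθ0.le _)

omit [Fintype Q] in
/-- A list of gates with pairwise disjoint supports. -/
theorem wr_list {n : ℕ} (inp : Fin n ↪ Q) (T : Finset (Fin n)) (θ : ℝ) (hθ0 : 0 < θ)
    (hθ1 : θ ≤ 1) (D : ℕ)
    (hθ4 : 1 ≤ D → θ ^ (4 * D) ≤ 1 / 4) (l : List (TGate Q))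
    (hpw : l.Pairwise fun g g' => Disjoint g.support g'.support)
    (hw : ∀ g ∈ l, (univ.filter fun j => j ∉ T ∧ inp j ∈ g.support).card = 0 ∨
      4 * D ≤ (univ.filter fun j => j ∉ T ∧ inp j ∈ g.support).card) :
    ∃ U : Finset (Fin n), (∀ j ∈ U, j ∉ T ∧ ∃ g ∈ l, inp j ∈ g.support) ∧
      ((l.map fun g =>
        gth θ (univ.filter fun j => j ∉ T ∧ inp j ∈ g.support).card).prod) ^ (4 * D)
        ≤ 3 ^ U.card := by
  induction l with
  | nil =>
    refine ⟨∅, fun j hj => absurd hj (Finset.notMem_empty j), ?_⟩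
    simp
  | cons g l ih =>
    rw [List.pairwise_cons] at hpw
    obtain ⟨U, hU, hle⟩ := ih hpw.2 (fun g' hg' => hw g' (List.mem_cons_of_mem _ hg'))
    have hdisj : Disjoint (univ.filter fun j => j ∉ T ∧ inp j ∈ g.support) U := by
      rw [Finset.disjoint_left]
      intro j hj hjU
      obtain ⟨_, g', hg', hjg'⟩ := hU j hjU
      have hd := hpw.1 g' hg'
      exact (Finset.disjoint_left.mp hd) (Finset.mem_filter.mp hj).2.2 hjg'
    refine ⟨(univ.filter fun j => j ∉ T ∧ inp j ∈ g.support) ∪ U, ?_, ?_⟩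
    · intro j hj
      rcases Finset.mem_union.mp hj with h | h
      · exact ⟨(Finset.mem_filter.mp h).2.1, g, List.mem_cons_self, (Finset.mem_filter.mp h).2.2⟩
      · obtain ⟨hjT, g', hg', hjg'⟩ := hU j h
        exact ⟨hjT, g', List.mem_cons_of_mem _ hg', hjg'⟩
    · rw [List.map_cons, List.prod_cons, mul_pow, Finset.card_union_of_disjoint hdisj, pow_add]
      have hg := wd_gate θ hθ0 hθ1 D hθ4 _ (hw g List.mem_cons_self)
      have hnn : 0 ≤ ((l.map fun g =>
          gth θ (univ.filter fun j => j ∉ T ∧ inp j ∈ g.support).card).prod) ^ (4 * D) :=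
        pow_nonneg (wr_prod_nonneg inp T θ hθ0 l) _
      exact mul_le_mul hg hle hnn (by positivity)

omit [Fintype Q] in
/-- One valid layer. -/
theorem wr_layer {n : ℕ} (inp : Fin n ↪ Q) (T : Finset (Fin n)) (θ : ℝ) (hθ0 : 0 < θ)
    (hθ1 : θ ≤ 1) (D : ℕ)
    (hθ4 : 1 ≤ D → θ ^ (4 * D) ≤ 1 / 4) (l : List (TGate Q)) (hv : LayerValid l)
    (hw : ∀ g ∈ l, g.isRight = true →
      (univ.filter fun j => j ∉ T ∧ inp j ∈ g.support).card = 0 ∨
        4 * D ≤ (univ.filter fun j => j ∉ T ∧ inp j ∈ g.support).card) :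
    0 ≤ ((l.filter fun g => g.isRight).map fun g =>
        gth θ (univ.filter fun j => j ∉ T ∧ inp j ∈ g.support).card).prod ∧
      (((l.filter fun g => g.isRight).map fun g =>
        gth θ (univ.filter fun j => j ∉ T ∧ inp j ∈ g.support).card).prod) ^ (4 * D)
          * 3 ^ T.card ≤ 3 ^ n ∧
      (isEnt l = false → ((l.filter fun g => g.isRight).map fun g =>
        gth θ (univ.filter fun j => j ∉ T ∧ inp j ∈ g.support).card).prod = 1) := by
  refine ⟨wr_prod_nonneg inp T θ hθ0 _, ?_, ?_⟩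
  · obtain ⟨U, hU, hle⟩ := wr_list inp T θ hθ0 hθ1 D hθ4 (l.filter fun g => g.isRight)
      (hv.2.filter _)
      (fun g hg => hw g (List.mem_filter.mp hg).1 (List.mem_filter.mp hg).2)
    have hdisj : Disjoint U T := by
      rw [Finset.disjoint_left]
      intro j hj hjT
      exact (hU j hj).1 hjT
    have hcard : U.card + T.card ≤ n := by
      have h := Finset.card_le_univ (U ∪ T)
      rwa [Fintype.card_fin, Finset.card_union_of_disjoint hdisj] at h
    calc (((l.filter fun g => g.isRight).map fun g =>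
          gth θ (univ.filter fun j => j ∉ T ∧ inp j ∈ g.support).card).prod) ^ (4 * D)
          * 3 ^ T.card ≤ (3:ℝ) ^ U.card * 3 ^ T.card :=
            mul_le_mul_of_nonneg_right hle (by positivity)
      _ = (3:ℝ) ^ (U.card + T.card) := by rw [pow_add]
      _ ≤ 3 ^ n := pow_le_pow_right₀ (by norm_num) hcard
  · intro hent
    have hnil : (l.filter fun g => g.isRight) = [] := by
      rw [List.filter_eq_nil_iff]
      intro g hg
      unfold isEnt at hent
      rw [List.any_eq_false] at hent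
      exact hent g hg
    rw [hnil]
    simp

omit [Fintype Q] in
/-- All layers: the exponent `4 D` is fixed, the bound counts the entangling layers. -/
theorem wr_mid {n : ℕ} (inp : Fin n ↪ Q) (T : Finset (Fin n)) (θ : ℝ) (hθ0 : 0 < θ)
    (hθ1 : θ ≤ 1) (D : ℕ)
    (hθ4 : 1 ≤ D → θ ^ (4 * D) ≤ 1 / 4) (M : List (List (TGate Q)))
    (hv : ∀ l ∈ M, LayerValid l)
    (hw : ∀ l ∈ M, ∀ g ∈ l, g.isRight = true →
      (univ.filter fun j => j ∉ T ∧ inp j ∈ g.support).card = 0 ∨
        4 * D ≤ (univ.filter fun j => j ∉ T ∧ inp j ∈ g.support).card) :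
    0 ≤ (M.map fun l => ((l.filter fun g => g.isRight).map fun g =>
        gth θ (univ.filter fun j => j ∉ T ∧ inp j ∈ g.support).card).prod).prod ∧
      ((M.map fun l => ((l.filter fun g => g.isRight).map fun g =>
        gth θ (univ.filter fun j => j ∉ T ∧ inp j ∈ g.support).card).prod).prod) ^ (4 * D)
          * ((3:ℝ) ^ T.card) ^ entDepth M ≤ ((3:ℝ) ^ n) ^ entDepth M ∧
      (entDepth M = 0 → (M.map fun l => ((l.filter fun g => g.isRight).map fun g =>
        gth θ (univ.filter fun j => j ∉ T ∧ inp j ∈ g.support).card).prod).prod = 1) := by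
  induction M with
  | nil => simp [entDepth]
  | cons l M ih =>
    obtain ⟨h1, h2, h3⟩ := ih (fun l' hl' => hv l' (List.mem_cons_of_mem _ hl'))
      (fun l' hl' => hw l' (List.mem_cons_of_mem _ hl'))
    obtain ⟨p1, p2, p3⟩ := wr_layer inp T θ hθ0 hθ1 D hθ4 l (hv l List.mem_cons_self)
      (hw l List.mem_cons_self)
    rw [List.map_cons, List.prod_cons]
    by_cases hent : isEnt l = true
    · have he : entDepth (l :: M) = entDepth M + 1 := by
        simp [entDepth, hent]
      refine ⟨mul_nonneg p1 h1, ?_, fun h0 => ?_⟩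
      · rw [he, mul_pow]
        calc (((l.filter fun g => g.isRight).map fun g =>
              gth θ (univ.filter fun j => j ∉ T ∧ inp j ∈ g.support).card).prod) ^ (4 * D)
            * ((M.map fun l => ((l.filter fun g => g.isRight).map fun g =>
              gth θ (univ.filter fun j => j ∉ T ∧ inp j ∈ g.support).card).prod).prod) ^ (4 * D)
            * ((3:ℝ) ^ T.card) ^ (entDepth M + 1)
            = ((((l.filter fun g => g.isRight).map fun g =>
              gth θ (univ.filter fun j => j ∉ T ∧ inp j ∈ g.support).card).prod) ^ (4 * D)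
                * 3 ^ T.card)
              * (((M.map fun l => ((l.filter fun g => g.isRight).map fun g =>
              gth θ (univ.filter fun j => j ∉ T ∧ inp j ∈ g.support).card).prod).prod) ^ (4 * D)
                * ((3:ℝ) ^ T.card) ^ entDepth M) := by ring
          _ ≤ (3:ℝ) ^ n * ((3:ℝ) ^ n) ^ entDepth M :=
              mul_le_mul p2 h2 (mul_nonneg (pow_nonneg h1 _) (by positivity)) (by positivity)
          _ = ((3:ℝ) ^ n) ^ (entDepth M + 1) := by ring
      · rw [he] at h0
        exact absurd h0 (Nat.succ_ne_zero _)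
    · have hent' : isEnt l = false := by simpa using hent
      have he : entDepth (l :: M) = entDepth M := by
        simp [entDepth, hent']
      rw [he, p3 hent', one_mul]
      exact ⟨h1, h2, h3⟩

/-- A circuit `pre ++ mid ++ suf` in which the generalized Toffoli gates of `pre` do not touch
the input qubits, `suf` has entangling depth at most two, and every generalized Toffoli gate
of `mid` acts on no input qubit outside `T` or on at least `4 D` input qubits outside `T`, `D`
the entangling depth of `mid`: the fourth power of the parity correlation is at most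
`6^4 (4/3)^|T| (3/4)^n`. -/
theorem depth_many_wide_off {n : ℕ} (inp : Fin n ↪ Q) (T : Finset (Fin n))
    (pre mid suf : List (List (TGate Q)))
    (hvp : ∀ l ∈ pre, LayerValid l) (hvm : ∀ l ∈ mid, LayerValid l)
    (hvs : ∀ l ∈ suf, LayerValid l)
    (hoff : ∀ l ∈ pre, ∀ g ∈ l, g.isRight = true → ∀ j, inp j ∉ g.support)
    (hd : entDepth suf ≤ 2)
    (hwide : ∀ l ∈ mid, ∀ g ∈ l, g.isRight = true →
      (univ.filter fun j => j ∉ T ∧ inp j ∈ g.support).card = 0 ∨
        4 * entDepth mid ≤ (univ.filter fun j => j ∉ T ∧ inp j ∈ g.support).card) (q : Q) :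
    |tParityCorrelation (pre ++ mid ++ suf) inp q| ^ 4 ≤
      1296 * (4 / 3 : ℝ) ^ T.card * (3 / 4 : ℝ) ^ n := by
  obtain ⟨θ, hθ0, hθ1, hθD, hθ4⟩ := wd_theta (entDepth mid)
  have hfin := (depth_many_final_off inp T pre mid suf hvp hvm hvs hoff hd θ hθ0 hθ1 hθD q).1
  obtain ⟨hF0, hF1, hF2⟩ := wr_mid inp T θ hθ0 hθ1 (entDepth mid) hθ4 mid hvm hwide
  obtain ⟨F, hF⟩ : ∃ F : ℝ, F = (mid.map fun l => ((l.filter fun g => g.isRight).map fun g =>
      gth θ (univ.filter fun j => j ∉ T ∧ inp j ∈ g.support).card).prod).prod := ⟨_, rfl⟩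
  rw [← hF] at hfin hF0 hF1 hF2
  have hTn : T.card ≤ n := by
    have h := Finset.card_le_univ T
    rwa [Fintype.card_fin] at h
  have hF4 : F ^ 4 * 3 ^ T.card ≤ 3 ^ n := by
    by_cases hD : entDepth mid = 0
    · rw [hF2 hD, one_pow, one_mul]
      exact pow_le_pow_right₀ (by norm_num) hTn
    · have h : (F ^ 4 * 3 ^ T.card) ^ entDepth mid ≤ ((3:ℝ) ^ n) ^ entDepth mid := by
        rw [mul_pow, ← pow_mul]
        exact hF1
      exact (pow_le_pow_iff_left₀ (by positivity) (by positivity) hD).mp h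
  have h4 : Real.sqrt 2 ^ 4 = 4 := by
    have h2 : Real.sqrt 2 ^ 2 = 2 := Real.sq_sqrt (by norm_num)
    calc Real.sqrt 2 ^ 4 = (Real.sqrt 2 ^ 2) ^ 2 := by ring
      _ = 4 := by
        rw [h2]
        norm_num
  have hs4 : ∀ k : ℕ, (Real.sqrt 2 ^ k) ^ 4 = 4 ^ k := by
    intro k
    rw [← pow_mul, mul_comm, pow_mul, h4]
  have h1 : |tParityCorrelation (pre ++ mid ++ suf) inp q| ^ 4
      ≤ (6 * (Real.sqrt 2 ^ T.card * F) / Real.sqrt 2 ^ n) ^ 4 :=
    pow_le_pow_left₀ (abs_nonneg _) hfin 4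
  have h2 : (6 * (Real.sqrt 2 ^ T.card * F) / Real.sqrt 2 ^ n) ^ 4
      = 1296 * (4 ^ T.card * F ^ 4) / 4 ^ n := by
    rw [div_pow, mul_pow, mul_pow, hs4, hs4]
    norm_num
  have h3 : 1296 * (4 ^ T.card * F ^ 4) / 4 ^ n
      ≤ 1296 * (4 / 3 : ℝ) ^ T.card * (3 / 4 : ℝ) ^ n := by
    rw [div_pow, div_pow]
    have e : 1296 * ((4:ℝ) ^ T.card / 3 ^ T.card) * ((3:ℝ) ^ n / 4 ^ n)
        = 1296 * (4 ^ T.card * (3 ^ n / 3 ^ T.card)) / 4 ^ n := by
      field_simp
    rw [e, div_le_div_iff_of_pos_right (by positivity)]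
    have h5 : F ^ 4 ≤ 3 ^ n / 3 ^ T.card := by
      rw [le_div_iff₀ (by positivity)]
      exact hF4
    have h6 : (0:ℝ) < 4 ^ T.card := by positivity
    nlinarith [mul_le_mul_of_nonneg_left h5 h6.le]
  calc |tParityCorrelation (pre ++ mid ++ suf) inp q| ^ 4
      ≤ (6 * (Real.sqrt 2 ^ T.card * F) / Real.sqrt 2 ^ n) ^ 4 := h1
    _ = 1296 * (4 ^ T.card * F ^ 4) / 4 ^ n := h2
    _ ≤ 1296 * (4 / 3 : ℝ) ^ T.card * (3 / 4 : ℝ) ^ n := h3

end Vale.Agent.Lib.P368
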